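import Crest.Agent.N067.M.Defs
import Crest.Agent.N067.V.Ball

/-!
# Row 67, block X2 (helper63): cap and rim contacts of the flattened body (on `M/Defs`)

`N = |∇d|`, `ν = ∇d / N`, size `r`, `L = r - d`, `sg = N_z / N`, `cs = ⟪om, ν⟫`.
-/

set_option autoImplicit false

open MeasureTheory Laplacian InnerProductSpace Topology Filter Set Metric
open scoped RealInnerProductSpace ContDiff Gradient

namespace Crest.Agent.N067.X2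

open Crest.Agent.R077 Crest.Agent.N067.V Crest.Agent.N067.M

noncomputable section

variable {n : ℕ}

/-- projection onto `ν^⊥` -/
def Pj (ν a : EE n) : EE n := a - ⟪a, ν⟫ • ν

/-- the regime: `t ≤ δ`, `|d| ≤ δ r`, `r ≥ 1` -/
structure Small (v : EE n → ℝ) (δ r : ℝ) (x : EE n) : Prop where
  t : tt v x ≤ δ
  d : |dd v x| ≤ δ * r
  r : 1 ≤ r

/-- a far contact (the first order fields of `M.Ct`) with `|1 - sg| ≤ δ` -/
structure Con (β : Bo) (v : EE n → ℝ) (δ r : ℝ) (x w om z : EE n) : Prop where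
  mem : w ∈ Core β (nu v x)
  unit : ‖om‖ = 1
  sgl : |1 - NN v z / NN v x| ≤ δ
  pos : z = cen v x r w + (NN v z / NN v x * (r - dd v x) - β.η * r) • om
  grad : nn v z = -(NN v z) • om
  eq : dd v z = PP β v x r w z

/-- cap type (open sector) -/
def IsCap (β : Bo) (ν w om : EE n) : Prop :=
  w = (3 + β.η - β.h) • om - (3 : ℝ) • ν ∧ ‖w‖ < β.η

/-- rim type: only the bounds of the tilt are used (`isRim_of_ab`, `isRim_of_vi`) -/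
def IsRim (β : Bo) (ν w om : EE n) : Prop :=
  β.η * (1 - ⟪om, ν⟫) ≤ 2 * β.h ∧ β.η * β.h / 16 ≤ ‖Pj ν om‖ ^ 2 ∧ ‖Pj ν w‖ ≤ 4 * ‖Pj ν om‖ ∧
    (β.η - β.h) * ⟪om, ν⟫ ≤ ⟪om, w⟫

/-- `-∂_r` of the defect at a far contact -/
def Lam (v : EE n → ℝ) (η : ℝ) (x w om : EE n) (sg : ℝ) : ℝ :=
  NN v x * sg * (⟪om, nu v x⟫ + ⟪om, w⟫ - η) + NN v x * (1 + sg ^ 2) / 2

/-- the tangential vector `m` -/
def mv (v : EE n → ℝ) (r : ℝ) (x w om : EE n) : EE n :=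
  (r - dd v x) • Pj (nu v x) om + r • (⟪w, nu v x⟫ • om - ⟪om, nu v x⟫ • w)

/-- `∇_x` of the defect at a far contact; `Lam • ∇rt = G0` -/
def G0 (v : EE n → ℝ) (r : ℝ) (x w om : EE n) (sg : ℝ) : EE n :=
  -(NN v x * sg) • Pj (nu v x) om
    - (NN v x - NN v x ^ 2 * (1 + sg ^ 2) / 2 + NN v x * sg * ⟪om, nu v x⟫ * (1 - NN v x)) • nu v x
    - hop (dd v) x (((r - dd v x) * (1 - sg ^ 2) / 2) • nu v x + sg • mv v r x w om)

open Classical in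
/-- **cap and rim supports**, in the `R`-form of `V.inv_form` (slack `e`) -/
def CRStmt (n : ℕ) : Prop := ∀ ε : ℝ, 0 < ε → ∃ δ0 : ℝ, 0 < δ0 ∧ ∀ β : Bo, β.η ≤ δ0 →
  β.h ≤ δ0 * β.η → ∃ η0 δ C : ℝ, 0 < η0 ∧ 0 < δ ∧ 1 ≤ C ∧
  ∀ (v : EE n → ℝ) (ρm r ηt : ℝ) (x w om z : EE n), Sol v → 0 ≤ ηt → ηt ≤ η0 → Small v δ r x →
    tt v x * (r - dd v x) ≤ √2 * NN v x →
    (∀ a, 0 ≤ hb (dd v) x a a + NN v x / (r - dd v x) * ‖a‖ ^ 2) →
    Con β v δ r x w om z → IsCap β (nu v x) w om ∨ IsRim β (nu v x) w om →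
    ∃ g : EE n, Lam v β.η x w om (NN v z / NN v x) • g = G0 v r x w om (NN v z / NN v x) ∧
      ∀ e > 0, ∃ R : EE n → ℝ, ContDiffAt ℝ 2 R x ∧ R x = r ∧ (∀ᶠ y in 𝓝 x, rt β v ρm y ≤ R y) ∧
        ∇ R x = g ∧ ∀ a, Lm v R x ≤ r * (if r * Bn v x ≤ ηt then 0 else (1 + ε) * hsq (dd v) x)
          + (2 + ε) * ‖g‖ ^ 2 / r + 4 * ⟪g, a⟫ + 2 * r ^ 2 * hb (dd v) x a a
          + 2 * (1 + ε) * r * ‖a‖ ^ 2 + C * r * tt v x ^ 2 + e

/-- `Ct.tilt` and `Ct.long` at thin cap and rim contacts -/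
def FxStmt (n : ℕ) : Prop := ∀ ε : ℝ, 0 < ε → ∃ δ C : ℝ, 0 < δ ∧ 1 ≤ C ∧ ∀ β : Bo,
  β.h ≤ δ * β.η → ∀ (v : EE n → ℝ) (r : ℝ) (x w om z g : EE n), Sol v → Small v δ r x →
    Con β v δ r x w om z → IsCap β (nu v x) w om ∨ IsRim β (nu v x) w om →
    Lam v β.η x w om (NN v z / NN v x) • g = G0 v r x w om (NN v z / NN v x) →
    r * Bn v x ≤ 1 / 100 →
      ‖(NN v z / NN v x) • om - nu v x‖ ≤ C * (‖g‖ + tt v x) ∧ ‖g‖ ≤ C ∧
      |⟪g, nu v x⟫| ≤ C * (tt v z + r * tt v x) ∧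
      ⟪g, nu v x⟫ ≤ C * r * tt v x * (‖om - nu v x‖ + tt v x + tt v z) ∧
      -⟪g, nu v x⟫ ≤ (1 + ε) * (tt v x + tt v z) / 4 +
        C * r * tt v x * (‖om - nu v x‖ + tt v x + tt v z)

end

end Crest.Agent.N067.X2
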