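import Crest.Agent.N067.X2.Sph
import Crest.Agent.N067.M.FlatU
import Crest.Agent.N067.V.BallM

/-!
# Row 67, block X2 (helper41): first order estimates at thin cap and rim contacts
-/

set_option autoImplicit false

open MeasureTheory Laplacian InnerProductSpace Topology Filter Set Metric
open scoped RealInnerProductSpace ContDiff Gradient

namespace Crest.Agent.N067.X2

open Crest.Agent.R077 Crest.Agent.N067.V Crest.Agent.N067.M

noncomputable section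

variable {n : ℕ} {β : Bo} {ν w om : EE n}

theorem IsCap.tl (h : IsCap β ν w om) (hν : ‖ν‖ = 1) (ho : ‖om‖ = 1) :
    β.η * (1 - ⟪om, ν⟫) ≤ 2 * β.h ∧ ‖Pj ν w‖ ≤ 4 * ‖Pj ν om‖ ∧
      (β.η - β.h) * ⟪om, ν⟫ ≤ ⟪om, w⟫ := by
  obtain ⟨hw, hlt⟩ := h
  have h0 := β.η0; have h1 := β.η1; have h2 := β.h0; have h3 := β.h1
  have hc : ⟪om, ν⟫ ≤ 1 := by simpa [hν, ho] using real_inner_le_norm om ν
  have e1 : ‖w‖ ^ 2 = (3 + β.η - β.h) ^ 2 - 6 * (3 + β.η - β.h) * ⟪om, ν⟫ + 9 := by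
    rw [hw, norm_sub_sq_real, norm_smul, norm_smul, ho, hν, real_inner_smul_left,
      real_inner_smul_right, mul_one, mul_one, Real.norm_eq_abs, Real.norm_eq_abs, sq_abs, sq_abs]
    ring
  have e2 : ⟪om, w⟫ = 3 + β.η - β.h - 3 * ⟪om, ν⟫ := by
    rw [hw, inner_sub_right, real_inner_smul_right, real_inner_smul_right,
      real_inner_self_eq_norm_sq, ho]
    ring
  have e3 : Pj ν w = (3 + β.η - β.h) • Pj ν om := by
    rw [hw, Pj, Pj, inner_sub_left, real_inner_smul_left, real_inner_smul_left,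
      real_inner_self_eq_norm_sq, hν]
    module
  have h4 := pow_lt_pow_left₀ hlt (norm_nonneg _) two_ne_zero
  have h5 : 1 - ⟪om, ν⟫ ≤ β.h := by nlinarith
  refine ⟨by nlinarith, ?_, by nlinarith⟩
  rw [e3, norm_smul, Real.norm_of_nonneg (by linarith)]
  exact mul_le_mul_of_nonneg_right (by linarith) (norm_nonneg _)

/-- the real part of the proof -/
theorem fx_real {ε δ K La t tz N Nz c s o r gn g a b u q : ℝ} (hε : 0 < ε) (hK : 0 ≤ K)
    (hL1 : 1 ≤ La) (hL2 : 2 ≤ (1 + ε) * La) (hL3 : La ≤ 21 / 10) (ht : 0 ≤ t) (ht1 : t ≤ 1)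
    (hz : 0 ≤ tz) (hz1 : tz ≤ 1) (hN : 0 ≤ 1 - N) (hN1 : 1 - N ≤ t) (hNz : 9 / 10 ≤ Nz)
    (hq0 : 0 ≤ 1 - Nz * c) (hq : 1 - Nz * c ≤ tz + o) (hq1 : 1 - Nz * c ≤ 1) (hs : 0 ≤ s)
    (hs1 : s ≤ 1) (hso : s ≤ o) (ho : o ≤ 2 * s) (hr : 1 ≤ r) (hg : |gn| ≤ g)
    (hn : La * gn = -((t + tz) / 2) + (1 - N) * (1 - Nz * c) - a)
    (ha : |a| ≤ K * t * u) (ha' : |a| ≤ b) (hu : u ≤ r * (t + tz + 6 * s))
    (hb : b ≤ (t + tz + 6 * s) / 100) (hT : Nz * s ≤ La * g + b) (hG : La * g ≤ s + 3 + b)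
    (hδ : δ ≤ 2 * (t + tz)) (hqq : q ≤ δ + o) :
    q ≤ (40 + 30 * K) * (g + t) ∧ g ≤ 40 + 30 * K ∧ |gn| ≤ (40 + 30 * K) * (tz + r * t) ∧
      gn ≤ (40 + 30 * K) * r * t * (o + t + tz) ∧
      -gn ≤ (1 + ε) * (t + tz) / 4 + (40 + 30 * K) * r * t * (o + t + tz) := by
  have hg0 : 0 ≤ g := (abs_nonneg _).trans hg
  have h1 : 0 ≤ (1 - N) * (1 - Nz * c) := mul_nonneg hN hq0
  have h2 : (1 - N) * (1 - Nz * c) ≤ t * (tz + o) := mul_le_mul hN1 hq hq0 ht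
  have h3 : (1 - N) * (1 - Nz * c) ≤ t := (mul_le_of_le_one_right hN hq1).trans hN1
  obtain ⟨a1, a2⟩ := abs_le.1 ha'
  obtain ⟨g1, g2⟩ := abs_le.1 hg
  have hrt : t ≤ r * t := le_mul_of_one_le_left ht hr
  set X := r * t * (o + t + tz) with hX
  have hX0 : 0 ≤ X := mul_nonneg (by linarith) (by linarith)
  have hX1 : X ≤ 4 * (r * t) := by
    rw [hX, mul_comm 4]; exact mul_le_mul_of_nonneg_left (by linarith) (by linarith)
  have h4 : |a| ≤ 6 * K * X := by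
    refine ha.trans ((mul_le_mul_of_nonneg_left (hu.trans (mul_le_mul_of_nonneg_left
      (show t + tz + 6 * s ≤ 6 * (o + t + tz) by linarith) (by linarith))) (mul_nonneg hK ht)).trans_eq ?_)
    rw [hX]; ring
  obtain ⟨b1, b2⟩ := abs_le.1 h4
  have h5 : t * (tz + o) ≤ X := mul_le_mul hrt (by linarith) (by linarith) (by linarith)
  have hKX : 0 ≤ K * X := mul_nonneg hK hX0
  have h6 : gn ≤ X + 6 * K * X := by
    by_contra h
    have := le_mul_of_one_le_left (show 0 ≤ gn by linarith) hL1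
    linarith
  have h7 : -gn ≤ (1 + ε) * (t + tz) / 4 + 6 * K * X := by
    refine le_of_mul_le_mul_left ?_ (show 0 < La by linarith)
    have := le_mul_of_one_le_left hKX hL1
    have := mul_le_mul_of_nonneg_right hL2 (show 0 ≤ t + tz by linarith)
    nlinarith
  have h8 : -gn ≤ (t + tz) / 2 + 6 * K * X := by
    by_contra h
    have := le_mul_of_one_le_left (show 0 ≤ -gn by linarith) hL1
    linarith
  have h9 : La * g ≤ 21 / 10 * g := mul_le_mul_of_nonneg_right hL3 hg0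
  have h10 : -(La * gn) ≤ La * g := by
    rw [← mul_neg]; exact mul_le_mul_of_nonneg_left (by linarith) (by linarith)
  have h11 : 9 / 10 * s ≤ Nz * s := mul_le_mul_of_nonneg_right hNz hs
  have h12 : g ≤ La * g := le_mul_of_one_le_left hg0 hL1
  have hK1 := mul_nonneg hK hg0
  have hK2 := mul_nonneg hK ht
  have hK3 := mul_nonneg hK hz
  have hK4 := mul_le_mul_of_nonneg_left hX1 hK
  have hK5 := mul_nonneg hK (ht.trans hrt)
  have hrt0 : 0 ≤ r * t := ht.trans hrt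
  have e1 : (40 + 30 * K) * (g + t) = 40 * g + 40 * t + 30 * (K * g) + 30 * (K * t) := by ring
  have e2 : (40 + 30 * K) * (tz + r * t) =
      40 * tz + 40 * (r * t) + 30 * (K * tz) + 30 * (K * (r * t)) := by ring
  have e3 : (40 + 30 * K) * r * t * (o + t + tz) = 40 * X + 30 * (K * X) := by rw [hX]; ring
  have e4 : K * (4 * (r * t)) = 4 * (K * (r * t)) := by ring
  have e5 : 6 * K * X = 6 * (K * X) := by ring
  rw [e1, e2, e3]
  rw [e4] at hK4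
  rw [e5] at h6 h7 h8 b1 b2
  clear_value X
  refine ⟨by linarith, by linarith, abs_le.2 ⟨by linarith, by linarith⟩, by linarith, by linarith⟩

/-- numerical facts on slopes and angles -/
theorem fx_num {δ η h N Z sg c p : ℝ} (hδ0 : 0 < δ) (hδ : δ ≤ 1 / 100) (hη : 0 < η)
    (hη1 : η ≤ 1 / 100) (hh : 0 < h) (hβ : h ≤ δ * η) (hN0 : 0 ≤ N) (hN1 : N ≤ 1) (hZ1 : Z ≤ 1)
    (ht : 1 - N ^ 2 ≤ δ) (eS : N * sg = Z) (s1 : |1 - sg| ≤ δ) (hc1 : c ≤ 1)
    (k1 : η * (1 - c) ≤ 2 * h) (k3 : (η - h) * c ≤ p) (hp : p ≤ η) :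
    1 - c ≤ 2 * δ ∧ 9 / 10 ≤ Z ∧ 2 - 7 * δ ≤ Z * (c + p - η) + N * (1 + sg ^ 2) / 2 ∧
      Z * (c + p - η) + N * (1 + sg ^ 2) / 2 ≤ 21 / 10 ∧
      |1 - sg ^ 2| ≤ 11 / 10 * ((1 - N ^ 2) + (1 - Z ^ 2)) ∧ 0 ≤ 1 - Z * c ∧ 1 - Z * c ≤ 1 ∧
      1 - Z * c ≤ (1 - Z ^ 2) + (1 - c) := by
  obtain ⟨s1, s2⟩ := abs_le.1 s1
  have hc2 : 1 - c ≤ 2 * δ := le_of_mul_le_mul_left (by linarith) hη
  have hN : 1 - δ ≤ N := by nlinarith
  have h2 : 1 - 2 * δ ≤ Z := by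
    have := mul_le_mul hN (show 1 - δ ≤ sg by linarith) (by linarith) hN0
    nlinarith
  have hZ0 : 0 ≤ Z := by linarith
  have h0 : h ≤ δ / 100 := by nlinarith
  have h1 : 1 - 3 * δ ≤ c + p - η := by nlinarith
  have h3 := mul_le_mul h2 h1 (by linarith) hZ0
  have h4 := mul_le_mul hZ1 (show c + p - η ≤ 1 by linarith) (by linarith) zero_le_one
  have h5 : 2 - 2 * δ ≤ 1 + sg ^ 2 := by nlinarith
  have h6 := mul_le_mul hN h5 (by linarith) hN0
  have h7 := mul_le_mul hN1 (show 1 + sg ^ 2 ≤ 22 / 10 by nlinarith) (by positivity) zero_le_one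
  have h8 := sq_nonneg δ
  have h9 : N ^ 2 * (1 - sg ^ 2) = (1 - Z ^ 2) - (1 - N ^ 2) := by rw [← eS]; ring
  have h10 : 0 ≤ 1 - Z ^ 2 := by nlinarith
  have h11 : 0 ≤ 1 - N ^ 2 := by nlinarith
  have h12 : N ^ 2 * |1 - sg ^ 2| ≤ (1 - N ^ 2) + (1 - Z ^ 2) := by
    rw [← abs_of_nonneg (sq_nonneg N), ← abs_mul, h9, abs_of_nonneg (sq_nonneg N), abs_le]
    constructor <;> linarith
  have h13 := mul_le_mul_of_nonneg_right (show 99 / 100 ≤ N ^ 2 by linarith)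
    (abs_nonneg (1 - sg ^ 2))
  have h14 := mul_le_mul hZ1 hc1 (by linarith) zero_le_one
  have h15 := mul_nonneg hZ0 (show 0 ≤ c by linarith)
  refine ⟨hc2, by linarith, by linarith, by linarith, by linarith, by linarith, by linarith, ?_⟩
  nlinarith [mul_nonneg (sub_nonneg.2 hZ1) hZ0, mul_nonneg (sub_nonneg.2 hZ1) (sub_nonneg.2 hc1)]

theorem fx_ang {c s o : ℝ} (hc0 : 0 ≤ c) (hc1 : c ≤ 1) (hs : 0 ≤ s) (ho : 0 ≤ o)
    (es : s ^ 2 = 1 - c ^ 2) (eo : o ^ 2 = 2 - 2 * c) :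
    s ≤ 1 ∧ s ≤ o ∧ o ≤ 2 * s ∧ 1 - c ≤ o :=
  ⟨by nlinarith, (abs_le_of_sq_le_sq' (by nlinarith) ho).2,
    (abs_le_of_sq_le_sq' (by nlinarith) (by linarith)).2,
    (abs_le_of_sq_le_sq' (by nlinarith) ho).2⟩

theorem norm_mv {v : EE n → ℝ} {x : EE n} {r : ℝ} (hν : ‖nu v x‖ = 1) (hw : ‖w‖ ≤ 1 / 100)
    (hc0 : 0 ≤ ⟪om, nu v x⟫) (hc1 : ⟪om, nu v x⟫ ≤ 1) (hd : |dd v x| ≤ r / 100)
    (k2 : ‖Pj (nu v x) w‖ ≤ 4 * ‖Pj (nu v x) om‖) :
    ‖mv v r x w om‖ ≤ 51 / 10 * r * ‖Pj (nu v x) om‖ := by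
  have hr : 0 ≤ r := by linarith [abs_nonneg (dd v x)]
  obtain ⟨d1, d2⟩ := abs_le.1 hd
  have hs0 := norm_nonneg (Pj (nu v x) om)
  have e : ⟪w, nu v x⟫ • om - ⟪om, nu v x⟫ • w =
      ⟪w, nu v x⟫ • Pj (nu v x) om - ⟪om, nu v x⟫ • Pj (nu v x) w := by
    rw [Pj, Pj]; module
  have h1 : |⟪w, nu v x⟫| ≤ 1 / 100 := by
    have := abs_real_inner_le_norm w (nu v x)
    rw [hν] at this; linarith
  have h2 : ‖⟪w, nu v x⟫ • om - ⟪om, nu v x⟫ • w‖ ≤
      1 / 100 * ‖Pj (nu v x) om‖ + 1 * (4 * ‖Pj (nu v x) om‖) := by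
    rw [e]
    refine (norm_sub_le _ _).trans ?_
    rw [norm_smul, norm_smul, Real.norm_eq_abs, Real.norm_of_nonneg hc0]
    exact add_le_add (mul_le_mul_of_nonneg_right h1 hs0)
      (mul_le_mul hc1 k2 (norm_nonneg _) zero_le_one)
  rw [mv]
  refine (norm_add_le _ _).trans ?_
  rw [norm_smul, norm_smul, Real.norm_of_nonneg (by linarith : 0 ≤ r - dd v x),
    Real.norm_of_nonneg hr]
  have h3 := mul_le_mul_of_nonneg_left h2 hr
  have h4 := mul_le_mul_of_nonneg_right (show r - dd v x ≤ 101 / 100 * r by linarith) hs0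
  have h5 := mul_nonneg hr hs0
  linarith

/-- the three consequences of `La • g = -Z • P om - A • ν - B` -/
theorem fx_vec {La Z A : ℝ} {g B : EE n} (hν : ‖ν‖ = 1) (hL : 0 ≤ La) (hZ0 : 0 ≤ Z) (hZ1 : Z ≤ 1)
    (hA : |A| ≤ 3) (hG : La • g = -Z • Pj ν om - A • ν - B) :
    La * ⟪g, ν⟫ = -A - ⟪B, ν⟫ ∧ Z * ‖Pj ν om‖ ≤ La * ‖g‖ + ‖B‖ ∧
      La * ‖g‖ ≤ ‖Pj ν om‖ + 3 + ‖B‖ := by
  have hs0 := norm_nonneg (Pj ν om)
  refine ⟨?_, ?_, ?_⟩
  · have := congrArg (fun y => ⟪y, ν⟫) hG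
    simp only [inner_sub_left, real_inner_smul_left, inner_Pj hν, real_inner_self_eq_norm_sq,
      hν] at this
    linarith
  · have h1 := congrArg (fun y => ⟪y, Pj ν om⟫) hG
    simp only [inner_sub_left, real_inner_smul_left, real_inner_comm (Pj ν om) ν, inner_Pj hν,
      real_inner_self_eq_norm_sq] at h1
    have h2 := (abs_le.1 (abs_real_inner_le_norm g (Pj ν om))).1
    have h3 := (abs_le.1 (abs_real_inner_le_norm B (Pj ν om))).1
    rcases hs0.eq_or_lt with h | h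
    · rw [← h, mul_zero]; positivity
    · refine le_of_mul_le_mul_right ?_ h
      nlinarith [mul_le_mul_of_nonneg_left h2 hL]
  · have h1 := congrArg norm hG
    rw [norm_smul, Real.norm_of_nonneg hL] at h1
    rw [h1]
    refine (norm_sub_le _ _).trans (add_le_add_left ((norm_sub_le _ _).trans ?_) _)
    rw [norm_smul, norm_smul, hν, norm_neg, Real.norm_of_nonneg hZ0, mul_one, Real.norm_eq_abs]
    exact add_le_add (mul_le_of_le_one_left hs0 hZ1) hA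

theorem fx (n : ℕ) : FxStmt n := by
  intro ε hε
  obtain ⟨K, hK, hgN⟩ := exists_grad_gN n
  obtain ⟨δ, hδ0, hδ1, hδ2⟩ : ∃ δ : ℝ, 0 < δ ∧ δ ≤ 1 / 100 ∧ 2 ≤ (1 + ε) * (2 - 7 * δ) := by
    refine ⟨min (1 / 100) (ε / (4 * (1 + ε))), lt_min (by norm_num) (by positivity),
      min_le_left _ _, ?_⟩
    have := (le_div_iff₀ (by positivity)).1 (min_le_right (1 / 100) (ε / (4 * (1 + ε))))
    linarith
  refine ⟨δ, 40 + 30 * K, hδ0, by linarith, fun β hβ v r x w om z g hv hS hC hT hG hB => ?_⟩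
  have ht := hv.tt_nonneg x
  have htz := hv.tt_nonneg z
  have eN : tt v x = 1 - NN v x ^ 2 := rfl
  have eZ : tt v z = 1 - NN v z ^ 2 := rfl
  have hN1 := NN_le_one hv x
  have hZ1 := NN_le_one hv z
  have hN0 : 0 ≤ NN v x := norm_nonneg _
  have htδ := hS.t
  have hr := hS.r
  have hNt : 1 - NN v x ≤ tt v x := by nlinarith
  have hN : 0 < NN v x := by linarith
  have hν := Wd.norm_nu hN
  have ho := hC.unit
  obtain ⟨k1, k2, k3⟩ : β.η * (1 - ⟪om, nu v x⟫) ≤ 2 * β.h ∧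
      ‖Pj (nu v x) w‖ ≤ 4 * ‖Pj (nu v x) om‖ ∧ (β.η - β.h) * ⟪om, nu v x⟫ ≤ ⟪om, w⟫ :=
    hT.elim (fun h => h.tl hν ho) fun h => ⟨h.1, h.2.2⟩
  have hw : ‖w‖ ≤ β.η := hC.mem.1
  have eS : NN v x * (NN v z / NN v x) = NN v z := mul_div_cancel₀ _ hN.ne'
  have hc1 : ⟪om, nu v x⟫ ≤ 1 := by simpa [hν, ho] using real_inner_le_norm om (nu v x)
  have how : ⟪om, w⟫ ≤ β.η := by
    have := real_inner_le_norm om w
    rw [ho] at this; linarith
  obtain ⟨hc2, hZ, hL1, hL2, hsq, hq0, hq1, hq2⟩ := fx_num hδ0 hδ1 β.η0 β.η1 β.h0 hβ hN0 hN1 hZ1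
    (eN ▸ htδ) eS hC.sgl hc1 k1 k3 how
  rw [← eN, ← eZ] at hsq
  rw [← eZ] at hq2
  have hc0 : 0 ≤ ⟪om, nu v x⟫ := by linarith
  obtain ⟨a1, a2, a3, a4⟩ := fx_ang hc0 hc1 (norm_nonneg (Pj (nu v x) om))
    (norm_nonneg (om - nu v x)) (by rw [normSq_Pj hν, ho, one_pow])
    (by rw [norm_sub_sq_real, ho, hν]; ring)
  have hd : |dd v x| ≤ r / 100 :=
    hS.d.trans ((mul_le_mul_of_nonneg_right hδ1 (by linarith)).trans_eq (by ring))
  have hmv := norm_mv hν (hw.trans β.η1) hc0 hc1 hd k2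
  obtain ⟨d1, d2⟩ := abs_le.1 hd
  obtain ⟨s1, s2⟩ := abs_le.1 hC.sgl
  have eA : NN v x - NN v x ^ 2 * (1 + (NN v z / NN v x) ^ 2) / 2 +
      NN v z * ⟪om, nu v x⟫ * (1 - NN v x) =
      (tt v x + tt v z) / 2 - (1 - NN v x) * (1 - NN v z * ⟪om, nu v x⟫) := by
    rw [mul_add, ← mul_pow, eS, eN, eZ]; ring
  rw [G0, Lam, eS, eA] at hG
  set sg := NN v z / NN v x with hsg
  set s := ‖Pj (nu v x) om‖ with hs
  have hs0 : 0 ≤ s := norm_nonneg _
  set u := ((r - dd v x) * (1 - sg ^ 2) / 2) • nu v x + sg • mv v r x w om with hu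
  have hun : ‖u‖ ≤ r * (tt v x + tt v z + 6 * s) := by
    refine (norm_add_le _ _).trans ?_
    rw [norm_smul, norm_smul, hν, mul_one, Real.norm_eq_abs, abs_div, abs_mul, abs_two,
      abs_of_nonneg (by linarith : 0 ≤ r - dd v x), Real.norm_of_nonneg (by linarith : 0 ≤ sg)]
    have h1 := mul_le_mul (show r - dd v x ≤ 101 / 100 * r by linarith) hsq (abs_nonneg _)
      (by linarith)
    have h2 := mul_le_mul (show sg ≤ 101 / 100 by linarith) hmv (norm_nonneg _) (by norm_num)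
    have h5 := mul_nonneg (show 0 ≤ r by linarith) hs0
    have h6 := mul_nonneg (show 0 ≤ r by linarith) (add_nonneg ht htz)
    linarith
  have hBu : ‖hop (dd v) x u‖ ≤ (tt v x + tt v z + 6 * s) / 100 := by
    have h3 := mul_le_mul_of_nonneg_left hun (show 0 ≤ Bn v x from Real.sqrt_nonneg _)
    have h4 := mul_le_mul_of_nonneg_right hB (show 0 ≤ tt v x + tt v z + 6 * s by positivity)
    linarith [Bl.norm_hop hv x u]
  have hz1 := tt_le_one v z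
  have h1 : 0 ≤ (1 - NN v x) * (1 - NN v z * ⟪om, nu v x⟫) := mul_nonneg (by linarith) hq0
  have h2 : (1 - NN v x) * (1 - NN v z * ⟪om, nu v x⟫) ≤ 1 := mul_le_one₀ (by linarith) hq0 hq1
  obtain ⟨v1, v2, v3⟩ := fx_vec hν (by linarith) (by linarith) hZ1
    (abs_le.2 ⟨by linarith, by linarith⟩) hG
  refine fx_real (δ := |1 - sg|) (N := NN v x) (Nz := NN v z) (c := ⟪om, nu v x⟫)
    (a := ⟪hop (dd v) x u, nu v x⟫) (u := ‖u‖) hε hK (by linarith)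
    (hδ2.trans (mul_le_mul_of_nonneg_left hL1 (by linarith))) hL2 ht (by linarith) htz hz1
    (by linarith) hNt hZ hq0 (by linarith) hq1 hs0 a1 a2 a3 hr ?_ (by linarith) ?_ ?_ hun hBu
    v2 v3 ?_ ?_
  · simpa [hν] using abs_real_inner_le_norm g (nu v x)
  · rw [hop_symm (c2_of hv.dd_sm x)]
    refine (abs_real_inner_le_norm _ _).trans ((mul_comm _ _).trans_le ?_)
    refine mul_le_mul_of_nonneg_right ?_ (norm_nonneg _)
    have := hgN v hv x (show 1 / 2 ≤ NN v x by linarith)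
    rwa [show ∇ (gN v) x = Bu v x from (jN hv hN).grad] at this
  · simpa [hν] using abs_real_inner_le_norm (hop (dd v) x u) (nu v x)
  · refine le_trans ?_ (hsq.trans (by linarith))
    rw [show 1 - sg ^ 2 = (1 - sg) * (1 + sg) by ring, abs_mul]
    exact le_mul_of_one_le_right (abs_nonneg _) (le_trans (by linarith) (le_abs_self _))
  · rw [show sg • om - nu v x = -((1 - sg) • om) + (om - nu v x) by module]
    refine (norm_add_le _ _).trans_eq ?_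
    rw [norm_neg, norm_smul, ho, mul_one, Real.norm_eq_abs]

end

end Crest.Agent.N067.X2
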