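import Crest.Agent.N067.X2.Defs

/-!
# Row 67, block X2 (helper63): calculus of jets `(value, gradient, Lm)` and Frobenius norms
-/

set_option autoImplicit false

open MeasureTheory Laplacian InnerProductSpace Topology Filter Set Metric
open scoped RealInnerProductSpace ContDiff Gradient

namespace Crest.Agent.N067.X2

open Crest.Agent.R077 Crest.Agent.N067.V Crest.Agent.N067.M

noncomputable section

variable {n : ℕ} {v f f' : EE n → ℝ} {x g g' : EE n} {a a' l l' : ℝ}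

/-- the jet of `f` at `x` -/
structure Jt (v : EE n → ℝ) (x : EE n) (f : EE n → ℝ) (a : ℝ) (g : EE n) (l : ℝ) : Prop where
  c2 : ContDiffAt ℝ 2 f x
  val : f x = a
  grad : ∇ f x = g
  lm : Lm v f x = l

namespace Jt

theorem diff (h : Jt v x f a g l) : DifferentiableAt ℝ f x := h.c2.differentiableAt (by simp)

theorem of (v : EE n → ℝ) (h : ContDiffAt ℝ 2 f x) : Jt v x f (f x) (∇ f x) (Lm v f x) :=
  ⟨h, rfl, rfl, rfl⟩

theorem cast (h : Jt v x f a g l) (h1 : a = a') (h2 : g = g') (h3 : l = l') :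
    Jt v x f a' g' l' := h1 ▸ h2 ▸ h3 ▸ h

theorem congr (h : Jt v x f a g l) (e : f' =ᶠ[𝓝 x] f) : Jt v x f' a g l :=
  ⟨h.c2.congr_of_eventuallyEq e, e.self_of_nhds.trans h.val, (grad_congr e).trans h.grad,
    (Lm_congr e).trans h.lm⟩

theorem const (c : ℝ) : Jt v x (fun _ => c) c 0 0 :=
  ⟨contDiffAt_const, rfl, gradient_fun_const x c, Lm_const c⟩

theorem add (h : Jt v x f a g l) (h' : Jt v x f' a' g' l') :
    Jt v x (fun y => f y + f' y) (a + a') (g + g') (l + l') :=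
  ⟨h.c2.add h'.c2, by rw [h.val, h'.val], by rw [grad_add h.diff h'.diff, h.grad, h'.grad],
    by rw [Lm_add h.c2 h'.c2, h.lm, h'.lm]⟩

theorem sub (h : Jt v x f a g l) (h' : Jt v x f' a' g' l') :
    Jt v x (fun y => f y - f' y) (a - a') (g - g') (l - l') :=
  ⟨h.c2.sub h'.c2, by rw [h.val, h'.val], by rw [grad_sub h.diff h'.diff, h.grad, h'.grad],
    by rw [Lm_sub h.c2 h'.c2, h.lm, h'.lm]⟩

theorem mul (h : Jt v x f a g l) (h' : Jt v x f' a' g' l') :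
    Jt v x (fun y => f y * f' y) (a * a') (a' • g + a • g') (l * a' + 2 * ⟪g, g'⟫ + a * l') :=
  ⟨h.c2.mul h'.c2, by rw [h.val, h'.val],
    by rw [grad_mul h.diff h'.diff, h.grad, h'.grad, h.val, h'.val],
    by rw [Lm_mul h.c2 h'.c2, gin_eq, h.lm, h'.lm, h.grad, h'.grad, h.val, h'.val]⟩

theorem cmul (h : Jt v x f a g l) (c : ℝ) : Jt v x (fun y => c * f y) (c * a) (c • g) (c * l) :=
  ((const c).mul h).cast rfl (by simp) (by simp)

theorem inv (h : Jt v x f a g l) (h0 : a ≠ 0) :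
    Jt v x (fun y => (f y)⁻¹) a⁻¹ (-(a ^ 2)⁻¹ • g) (-l / a ^ 2 + 2 * ‖g‖ ^ 2 / a ^ 3) := by
  have h1 : f x ≠ 0 := h.val ▸ h0
  exact ⟨h.c2.inv h1, by rw [h.val], by rw [grad_inv h.diff h1, h.val, h.grad],
    by rw [Lm_inv h.c2 h1, gsq_eq, h.val, h.grad, h.lm]⟩

/-- division of jets, as an equation -/
theorem of_mul {b : ℝ} {F : EE n → ℝ} {G : EE n} {m : ℝ} (h : Jt v x F b G m)
    (h' : Jt v x f' a' g' l') (h0 : a' ≠ 0) (c2 : ContDiffAt ℝ 2 f x)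
    (e : F =ᶠ[𝓝 x] fun y => f y * f' y) (h1 : b = a * a') (h2 : G = a' • g + a • g')
    (h3 : m = l * a' + 2 * ⟪g, g'⟫ + a * l') : Jt v x f a g l := by
  have k := ((of v c2).mul h').congr e
  have k1 : f x = a := mul_right_cancel₀ h0 (by rw [← h1, ← h.val, k.val])
  have k2 : ∇ f x = g := by
    have := k.grad.symm.trans (h.grad.trans h2)
    rw [k1, add_left_inj] at this
    exact smul_right_injective _ h0 this
  refine ⟨c2, k1, k2, mul_right_cancel₀ h0 ?_⟩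
  have := k.lm.symm.trans (h.lm.trans h3)
  rw [k1, k2] at this
  linarith

theorem sum {ι : Type*} (s : Finset ι) {F : ι → EE n → ℝ} {A L : ι → ℝ} {G : ι → EE n}
    (h : ∀ i ∈ s, Jt v x (F i) (A i) (G i) (L i)) :
    Jt v x (fun y => ∑ i ∈ s, F i y) (∑ i ∈ s, A i) (∑ i ∈ s, G i) (∑ i ∈ s, L i) := by
  classical
  induction s using Finset.induction_on with
  | empty => simpa using const 0
  | insert i s hi ih =>
    simp only [Finset.sum_insert hi]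
    exact (h i (Finset.mem_insert_self i s)).add (ih fun j hj => h j (Finset.mem_insert_of_mem hj))

theorem aff (c : ℝ) (a : EE n) :
    Jt v x (aff c a x) c a (-(2 * √2 * v x * ⟪∇ (dd v) x, a⟫)) :=
  ⟨c2_of (aff_sm ..) x, aff_self .., ext_inner_right ℝ fun h => by
    rw [inner_grad, (hasFDerivAt_aff c a x x).fderiv, innerSL_apply_apply],
    by rw [Lm_aff, dr, inner_grad]⟩

theorem dd (hv : Sol v) : Jt v x (dd v) (dd v x) (∇ (dd v) x) (-√2 * v x * (2 - tt v x)) :=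
  ⟨c2_of hv.dd_sm x, rfl, rfl, hv.Lm_dd x⟩

theorem dr (hv : Sol v) (u : EE n) : Jt v x (fun y => ⟪∇ (N067.dd v) y, u⟫) ⟪∇ (N067.dd v) x, u⟫
    (hop (N067.dd v) x u) (-qq v x * ⟪∇ (N067.dd v) x, u⟫) := by
  have e : (fun y => ⟪∇ (N067.dd v) y, u⟫) = V.dr u (N067.dd v) := funext fun y => inner_grad ..
  rw [e, inner_grad]
  exact ⟨c2_of (dr_sm hv.dd_sm u) x, rfl, grad_dr (c2_of hv.dd_sm x) u, Lm_dr hv u x⟩

/-- `f ∘` (an affine reflection) -/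
theorem iso (hv : Sol v) (R : EE n ≃ₗᵢ[ℝ] EE n) (hR : ∀ a b, ⟪R a, b⟫ = ⟪a, R b⟫) (z : EE n) :
    Jt v x (fun y => N067.dd v (z - R x + R y)) (N067.dd v z) (R (∇ (N067.dd v) z))
      (-√2 * v z * tt v z - 2 * √2 * v x * ⟪∇ (N067.dd v) x, R (∇ (N067.dd v) z)⟫) := by
  have zx : z - R x + R x = z := sub_add_cancel ..
  have h1 : ∇ (fun y => N067.dd v (z - R x + R y)) x = R (∇ (N067.dd v) z) :=
    ext_inner_right ℝ fun h => by
      have := (hv.dd_diff (z - R x + R x)).hasFDerivAt.comp x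
        ((R.toContinuousLinearEquiv.hasFDerivAt (x := x)).const_add (z - R x))
      rw [inner_grad, show fderiv ℝ (fun y => N067.dd v (z - R x + R y)) x = _ from this.fderiv,
        zx, hR, inner_grad]
      rfl
  exact ⟨((hv.dd_cd 2).comp (contDiff_const.add R.toContinuousLinearEquiv.contDiff)).contDiffAt,
    by rw [zx], h1, by rw [Lm, lap_isom (hv.dd_cd 2), zx, hv.lap_dd, h1]⟩

end Jt

theorem normSq_eq (a : EE n) : ‖a‖ ^ 2 = ∑ i, ⟪ev i, a⟫ * ⟪ev i, a⟫ := by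
  rw [EuclideanSpace.real_norm_sq_eq]
  exact Finset.sum_congr rfl fun i _ => by simp [ev, EuclideanSpace.inner_single_left, sq]

theorem sum_ev (a : EE n) : ∑ i, ⟪ev i, a⟫ • ev i = a := by
  simpa [ev] using (EuclideanSpace.basisFun (Fin n) ℝ).sum_repr' a

/-- the jet of the norm of a vector field -/
theorem Jt.norm {W : EE n → EE n} {om : EE n} {y lw : ℝ} {M : EE n → EE n} {L : EE n → ℝ}
    (h : ∀ u, Jt v x (fun p => ⟪u, W p⟫) ⟪u, W x⟫ (M u) (L u)) (hW : ContDiffAt ℝ 2 W x)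
    (hx : W x = y • om) (hy : 0 < y) (ho : ‖om‖ = 1) (hl : L om = lw) :
    Jt v x (fun p => ‖W p‖) y (M om) (lw + ((∑ i, ‖M (ev i)‖ ^ 2) - ‖M om‖ ^ 2) / y) := by
  have h0 : ‖W x‖ = y := by rw [hx, norm_smul, ho, mul_one, Real.norm_of_nonneg hy.le]
  have h1 := Jt.sum Finset.univ fun i _ =>
    ((h (ev i)).sub (Jt.const ⟪ev i, W x⟫)).mul ((h (ev i)).sub (Jt.const ⟪ev i, W x⟫))
  have h2 := (((h om).cmul (2 * y)).sub (Jt.const (y ^ 2))).add h1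
  have c2 : ContDiffAt ℝ 2 (fun p => ‖W p‖) x :=
    hW.norm ℝ (norm_pos_iff.1 (h0 ▸ hy))
  have k := (Jt.of v c2).mul (Jt.of v c2)
  have e : (fun p => ‖W p‖ * ‖W p‖) = fun p => 2 * y * ⟪om, W p⟫ - y ^ 2 +
      ∑ i, (⟪ev i, W p⟫ - ⟪ev i, W x⟫) * (⟪ev i, W p⟫ - ⟪ev i, W x⟫) := funext fun p => by
    simp only [← inner_sub_right, ← normSq_eq]
    rw [norm_sub_sq_real, h0, hx, real_inner_smul_right, real_inner_comm]
    ring
  rw [e] at k
  have k2 := k.grad.symm.trans h2.grad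
  have k3 := k.lm.symm.trans h2.lm
  simp only [h0, sub_self, zero_smul, add_zero, Finset.sum_const_zero, sub_zero, mul_zero, zero_mul,
    zero_add, real_inner_self_eq_norm_sq, ← Finset.mul_sum, hl] at k2 k3
  have k4 : ∇ (fun p => ‖W p‖) x = M om :=
    smul_right_injective _ (show 2 * y ≠ 0 by positivity) (by
      simp only [← k2]; rw [two_mul, add_smul])
  refine ⟨c2, h0, k4, ?_⟩
  rw [k4] at k3
  field_simp
  linarith

/-! ### Frobenius norms -/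

/-- squared Frobenius norm -/
def fro (M : EE n →L[ℝ] EE n) : ℝ := ∑ i, ‖M (ev i)‖ ^ 2

theorem fro_hop (hf : ContDiffAt ℝ 2 f x) : fro (hop f x) = hsq f x :=
  Finset.sum_congr rfl fun i _ => by
    rw [normSq_eq]
    exact Finset.sum_congr rfl fun j _ => by
      rw [real_inner_comm, inner_hop, hs, pdv_pdv_eq hf, sq]

theorem sum_inner_map (M : EE n →L[ℝ] EE n) (u b : EE n) :
    ∑ i, ⟪ev i, u⟫ * ⟪M (ev i), b⟫ = ⟪M u, b⟫ := by
  conv_rhs => rw [← sum_ev u]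
  simp only [map_sum, map_smul, sum_inner, real_inner_smul_left]

theorem fro_proj (M : EE n →L[ℝ] EE n) {u : EE n} (hu : ‖u‖ = 1) :
    ∑ i, ‖M (ev i - ⟪ev i, u⟫ • u)‖ ^ 2 = fro M - ‖M u‖ ^ 2 := by
  have h1 := sum_inner_map M u (M u)
  have h2 := normSq_eq u
  rw [real_inner_self_eq_norm_sq] at h1
  rw [hu, one_pow] at h2
  simp only [map_sub, map_smul, norm_sub_sq_real, real_inner_smul_right, norm_smul, mul_pow,
    Real.norm_eq_abs, sq_abs, Finset.sum_add_distrib, Finset.sum_sub_distrib, ← Finset.mul_sum,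
    ← Finset.sum_mul, h1, fro]
  simp only [sq, ← h2]
  ring

theorem normSq_le_fro (M : EE n →L[ℝ] EE n) (u : EE n) : ‖M u‖ ^ 2 ≤ fro M * ‖u‖ ^ 2 := by
  have h1 : ‖M u‖ ≤ ∑ i, ‖M (ev i)‖ * |⟪ev i, u⟫| := by
    conv_lhs => rw [← sum_ev u]
    rw [map_sum]
    exact (norm_sum_le _ _).trans_eq (Finset.sum_congr rfl fun i _ => by
      rw [map_smul, norm_smul, Real.norm_eq_abs, mul_comm])
  refine (pow_le_pow_left₀ (norm_nonneg _) h1 2).trans
    ((Finset.sum_mul_sq_le_sq_mul_sq _ _ _).trans_eq ?_)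
  simp only [fro, normSq_eq u, sq_abs, sq (⟪_, _⟫ : ℝ)]

/-- the projection as a linear map -/
def PL (ν : EE n) : EE n →L[ℝ] EE n :=
  ContinuousLinearMap.id ℝ _ - (innerSL ℝ ν).smulRight ν

theorem PL_apply (ν u : EE n) : PL ν u = Pj ν u := by simp [PL, Pj, real_inner_comm]

theorem fro_PL (M : EE n →L[ℝ] EE n) {ν : EE n} (hν : ‖ν‖ = 1) :
    fro (M ∘L PL ν) = fro M - ‖M ν‖ ^ 2 := by
  rw [← fro_proj M hν]
  exact Finset.sum_congr rfl fun i _ => by rw [ContinuousLinearMap.comp_apply, PL_apply, Pj]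

theorem normSq_Pj {ν : EE n} (hν : ‖ν‖ = 1) (u : EE n) : ‖Pj ν u‖ ^ 2 = ‖u‖ ^ 2 - ⟪u, ν⟫ ^ 2 := by
  rw [Pj, norm_sub_sq_real, real_inner_smul_right, norm_smul, hν, mul_one, Real.norm_eq_abs, sq_abs]
  ring

theorem inner_Pj {ν : EE n} (hν : ‖ν‖ = 1) (u : EE n) : ⟪Pj ν u, ν⟫ = 0 := by
  rw [Pj, inner_sub_left, real_inner_smul_left, real_inner_self_eq_norm_sq, hν]; ring

theorem normSq_add3 (a b c : EE n) {κ : ℝ} (hκ : 0 < κ) :
    ‖a + b + c‖ ^ 2 ≤ (1 + κ) * ‖a‖ ^ 2 + 2 * (1 + κ⁻¹) * (‖b‖ ^ 2 + ‖c‖ ^ 2) := by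
  have h1 : ‖a + b + c‖ ≤ ‖a‖ + (‖b‖ + ‖c‖) := norm_add₃_le.trans_eq (add_assoc _ _ _)
  have h2 := amgm' (s := -(‖a‖ * (‖b‖ + ‖c‖))) (u := ‖a‖) (w := ‖b‖ + ‖c‖) hκ
    (by rw [abs_neg, abs_of_nonneg (by positivity)])
  have h3 : (‖b‖ + ‖c‖) ^ 2 ≤ 2 * (‖b‖ ^ 2 + ‖c‖ ^ 2) := by nlinarith [sq_nonneg (‖b‖ - ‖c‖)]
  have h4 := mul_le_mul_of_nonneg_left h3 (show 0 ≤ 1 + κ⁻¹ by positivity)
  have h5 := pow_le_pow_left₀ (norm_nonneg _) h1 2
  rw [div_eq_mul_inv] at h2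
  nlinarith

/-- the Frobenius term of the identity -/
theorem fro_bound (A : EE n →L[ℝ] EE n) {ν om τ X Y g : EE n} (ho : ‖om‖ = 1) (hν : ‖ν‖ = 1)
    {M : EE n → EE n} (hM : ∀ u, M u = A u + ⟪ν, u⟫ • X + ⟪τ, u⟫ • g + ⟪om, u⟫ • Y) {κ : ℝ}
    (hκ : 0 < κ) : (∑ i, ‖M (ev i)‖ ^ 2) - ‖M om‖ ^ 2 ≤ (1 + κ) * fro A
      + 2 * (1 + κ⁻¹) * (‖Pj ν om‖ ^ 2 * ‖X‖ ^ 2 + ‖τ‖ ^ 2 * ‖g‖ ^ 2) := by
  set M' : EE n →L[ℝ] EE n := A + (innerSL ℝ ν).smulRight X + (innerSL ℝ τ).smulRight g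
    + (innerSL ℝ om).smulRight Y
  have e : ∀ u, M u = M' u := fun u => by simp [hM, M']
  have hoo : ⟪om, om⟫ = 1 := by rw [real_inner_self_eq_norm_sq, ho, one_pow]
  have h1 := fro_proj M' ho
  have h2 := fro_proj A ho
  have h3 : ∀ b : EE n, ∑ i, ⟪b, ev i - ⟪ev i, om⟫ • om⟫ ^ 2 = ‖b‖ ^ 2 - ⟪b, om⟫ ^ 2 := fun b => by
    rw [← normSq_Pj ho, normSq_eq]
    exact Finset.sum_congr rfl fun i _ => by
      rw [Pj, inner_sub_right, inner_sub_right, real_inner_smul_right, real_inner_smul_right,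
        real_inner_comm b]
      ring
  simp only [e]
  change fro M' - _ ≤ _
  rw [← h1]
  refine (Finset.sum_le_sum fun i _ => (?_ : _ ≤ (1 + κ) * ‖A (ev i - ⟪ev i, om⟫ • om)‖ ^ 2
    + 2 * (1 + κ⁻¹) * (⟪ν, ev i - ⟪ev i, om⟫ • om⟫ ^ 2 * ‖X‖ ^ 2
      + ⟪τ, ev i - ⟪ev i, om⟫ • om⟫ ^ 2 * ‖g‖ ^ 2))).trans ?_
  · rw [← e, hM, show ⟪om, ev i - ⟪ev i, om⟫ • om⟫ = 0 by
      rw [inner_sub_right, real_inner_smul_right, hoo, real_inner_comm]; ring, zero_smul, add_zero]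
    refine (normSq_add3 _ _ _ hκ).trans_eq ?_
    simp only [norm_smul, mul_pow, Real.norm_eq_abs, sq_abs]
  · simp only [Finset.sum_add_distrib, ← Finset.mul_sum, ← Finset.sum_mul, h2, h3]
    rw [normSq_Pj hν, hν, ho, real_inner_comm ν om]
    gcongr
    · exact sub_le_self _ (sq_nonneg _)
    · exact sub_le_self _ (sq_nonneg _)

end

end Crest.Agent.N067.X2
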