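import Crest.Agent.N067.X2.Jet
import Crest.Agent.N067.M.Wedge0

/-!
# Row 67, block X2 (helper63): the exact second order identity at a sphere contact

centre `c = x + (al r - d) ν + r τ`, `y1 = |z - c| - ga r`, competitor `z + R (· - x)`.
-/

set_option autoImplicit false

open MeasureTheory Laplacian InnerProductSpace Topology Filter Set Metric
open scoped RealInnerProductSpace ContDiff Gradient

namespace Crest.Agent.N067.X2

open Crest.Agent.R077 Crest.Agent.N067.V Crest.Agent.N067.M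

noncomputable section

variable {n : ℕ} {v f : EE n → ℝ} {x g z τ om : EE n} {r l al ga sg : ℝ}

theorem grad_eq (hN : 0 < NN v x) : ∇ (dd v) x = NN v x • nu v x := by
  rw [nu, smul_smul, mul_inv_cancel₀ hN.ne', one_smul, nn]

theorem nn_c2 (hv : Sol v) (x : EE n) : ContDiffAt ℝ 2 (nn v) x :=
  contDiffAt_euclidean.2 fun i => by
    simpa only [nn, grad_apply] using c2_of (hv.pdv_dd_sm i) x

theorem NN_c2 (hv : Sol v) (hN : 0 < NN v x) : ContDiffAt ℝ 2 (NN v) x := gN_sm hv hN (k := 2)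

theorem nu_c2 (hv : Sol v) (hN : 0 < NN v x) : ContDiffAt ℝ 2 (nu v) x :=
  ((NN_c2 hv hN).inv hN.ne').smul (nn_c2 hv x)

/-- `B ν` -/
def Bu (v : EE n → ℝ) (x : EE n) : EE n := hop (dd v) x (nu v x)

/-- `T² = |B|² - |B ν|²` -/
def T2 (v : EE n → ℝ) (x : EE n) : ℝ := hsq (dd v) x - ‖Bu v x‖ ^ 2

/-- the transpose of `Dν` -/
def AA (v : EE n → ℝ) (x : EE n) : EE n →L[ℝ] EE n := (NN v x)⁻¹ • (hop (dd v) x ∘L PL (nu v x))

theorem AA_apply (u : EE n) : AA v x u = (NN v x)⁻¹ • hop (dd v) x (Pj (nu v x) u) := by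
  simp [AA, PL_apply]

theorem fro_AA (hv : Sol v) (hN : 0 < NN v x) : fro (AA v x) = T2 v x / NN v x ^ 2 := by
  rw [T2, Bu, ← fro_hop (c2_of hv.dd_sm x), ← fro_PL _ (Wd.norm_nu hN), fro, fro, Finset.sum_div]
  refine Finset.sum_congr rfl fun i _ => ?_
  rw [AA, smul_apply, norm_smul, mul_pow, Real.norm_eq_abs, sq_abs]
  field_simp

theorem jN (hv : Sol v) (hN : 0 < NN v x) :
    Jt v x (NN v) (NN v x) (Bu v x) (T2 v x / NN v x - qq v x * NN v x) := by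
  have h : ∇ (gN v) x = Bu v x := by
    rw [grad_gN hv hN, grad_eq hN, map_smul, smul_smul]
    exact (congrArg (· • _) (inv_mul_cancel₀ hN.ne')).trans (one_smul _ _)
  exact ⟨NN_c2 hv hN, rfl, h, (Lm_gN hv hN).trans (by rw [gsq_eq, h]; rfl)⟩

theorem jnu (hv : Sol v) (hN : 0 < NN v x) (u : EE n) :
    Jt v x (fun y => ⟪nu v y, u⟫) ⟪nu v x, u⟫ (AA v x u)
      (-(T2 v x / NN v x ^ 2) * ⟪nu v x, u⟫ - 2 * ⟪AA v x u, Bu v x⟫ / NN v x) := by
  refine (Jt.dr hv u).of_mul (jN hv hN) hN.ne' ((nu_c2 hv hN).inner ℝ contDiffAt_const) ?_ ?_ ?_ ?_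
  · filter_upwards [(NN_c2 hv hN).continuousAt.eventually (lt_mem_nhds hN)] with y hy
    rw [grad_eq hy, real_inner_smul_left, mul_comm]
  · rw [grad_eq hN, real_inner_smul_left, mul_comm]
  · rw [AA_apply, smul_smul, mul_inv_cancel₀ hN.ne', one_smul, Pj, map_sub, map_smul, Bu,
      real_inner_comm, sub_add_cancel]
  · rw [grad_eq hN, real_inner_smul_left]
    field_simp
    ring

theorem jF {L Y : EE n → ℝ} {L0 lL lY : ℝ} {gL gY : EE n} (hL : Jt v x L L0 gL lL)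
    (hY : Jt v x Y (sg * L0) gY lY) (h0 : L0 ≠ 0) :
    Jt v x (fun p => (L p ^ 2 - Y p ^ 2) / (2 * L p)) (L0 * (1 - sg ^ 2) / 2)
      (((1 + sg ^ 2) / 2) • gL - sg • gY)
      ((1 + sg ^ 2) / 2 * lL - sg * lY - ‖gY - sg • gL‖ ^ 2 / L0) := by
  refine ((hL.mul hL).sub (hY.mul hY)).of_mul (hL.cmul 2) (mul_ne_zero two_ne_zero h0)
    (((hL.c2.pow 2).sub (hY.c2.pow 2)).div (contDiffAt_const.mul hL.c2)
      (hL.val ▸ mul_ne_zero two_ne_zero h0)) ?_ (by ring) ?_ ?_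
  · filter_upwards [hL.c2.continuousAt.eventually_ne (hL.val ▸ h0 : L x ≠ 0)] with y hy
    field_simp
  · match_scalars <;> ring
  · simp only [norm_sub_sq_real, inner_sub_left, real_inner_smul_left, real_inner_smul_right,
      norm_smul, mul_pow, Real.norm_eq_abs, sq_abs, real_inner_self_eq_norm_sq]
    field_simp
    ring

theorem exists_R {ν : EE n} (hν : ‖ν‖ = 1) (ho : ‖om‖ = 1) (hc : 0 < 1 + ⟪om, ν⟫) :
    ∃ R : EE n ≃ₗᵢ[ℝ] EE n,
      ∀ u, R u = u - ((⟪ν, u⟫ + ⟪om, u⟫) * (1 + ⟪om, ν⟫)⁻¹) • (ν + om) := by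
  have h1 : ‖ν + om‖ ^ 2 = 2 * (1 + ⟪om, ν⟫) := by
    rw [norm_add_sq_real, hν, ho, real_inner_comm]; ring
  have h2 : ‖ν + om‖ ≠ 0 := fun h => by rw [h] at h1; linarith
  obtain ⟨R, hR⟩ := exists_refl (e := ‖ν + om‖⁻¹ • (ν + om)) (by rw [norm_smul, norm_inv, norm_norm, inv_mul_cancel₀ h2])
  refine ⟨R, fun u => ?_⟩
  rw [hR, smul_smul, real_inner_smul_left, inner_add_left]
  congr 2
  field_simp
  rw [h1, mul_right_comm]

/-- the vector from the centre to the competitor -/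
def Wv (v : EE n → ℝ) (R : EE n ≃ₗᵢ[ℝ] EE n) (x z τ : EE n) (al : ℝ) (p : EE n × ℝ) : EE n :=
  z - R x + R p.1 - p.1 - (al * p.2 - dd v p.1) • nu v p.1 - p.2 • Pj (nu v p.1) τ

/-- the defect -/
def Ps (v : EE n → ℝ) (R : EE n ≃ₗᵢ[ℝ] EE n) (x z τ : EE n) (al ga : ℝ) (p : EE n × ℝ) : ℝ :=
  dd v (z - R x + R p.1) - (dd v p.1 + gp (NN v p.1) (p.2 - dd v p.1) (‖Wv v R x z τ al p‖ - ga * p.2))

variable {R : EE n ≃ₗᵢ[ℝ] EE n}

theorem Wv_c2 (hv : Sol v) (hN : 0 < NN v x) : ContDiffAt ℝ 2 (Wv v R x z τ al) (x, r) := by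
  have h1 : ContDiffAt ℝ 2 (fun p : EE n × ℝ => nu v p.1) (x, r) :=
    ContDiffAt.comp (g := nu v) (x, r) (nu_c2 hv hN) contDiffAt_fst
  have h2 : ContDiffAt ℝ 2 (fun p : EE n × ℝ => dd v p.1) (x, r) :=
    ContDiffAt.comp (g := dd v) (x, r) (c2_of hv.dd_sm x) contDiffAt_fst
  have h3 : ContDiffAt ℝ 2 (fun p : EE n × ℝ => R p.1) (x, r) :=
    R.toContinuousLinearEquiv.contDiff.contDiffAt.comp (x, r) contDiffAt_fst
  exact (((contDiffAt_const.add h3).sub contDiffAt_fst).sub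
    (((contDiffAt_const.mul contDiffAt_snd).sub h2).smul h1)).sub
    (contDiffAt_snd.smul (contDiffAt_const.sub ((contDiffAt_const.inner ℝ h1).smul h1)))

theorem Ps_c2 (hv : Sol v) (hN : 0 < NN v x) (hL : r - dd v x ≠ 0)
    (hW : Wv v R x z τ al (x, r) ≠ 0) : ContDiffAt ℝ 2 (Ps v R x z τ al ga) (x, r) := by
  have h1 : ContDiffAt ℝ 2 (fun p : EE n × ℝ => NN v p.1) (x, r) :=
    ContDiffAt.comp (g := NN v) (x, r) (NN_c2 hv hN) contDiffAt_fst
  have h2 : ContDiffAt ℝ 2 (fun p : EE n × ℝ => dd v p.1) (x, r) :=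
    ContDiffAt.comp (g := dd v) (x, r) (c2_of hv.dd_sm x) contDiffAt_fst
  have h3 : ContDiffAt ℝ 2 (fun p : EE n × ℝ => R p.1) (x, r) :=
    R.toContinuousLinearEquiv.contDiff.contDiffAt.comp (x, r) contDiffAt_fst
  exact ((c2_of hv.dd_sm _).comp (x, r) (contDiffAt_const.add h3)).sub (h2.add
    ((h1.mul (((contDiffAt_snd.sub h2).pow 2).sub ((((Wv_c2 hv hN).norm ℝ hW).sub
      (contDiffAt_const.mul contDiffAt_snd)).pow 2))).div
      (contDiffAt_const.mul (contDiffAt_snd.sub h2)) (mul_ne_zero two_ne_zero hL)))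

theorem jW (hv : Sol v) (hN : 0 < NN v x) (hR : ∀ a b, ⟪R a, b⟫ = ⟪a, R b⟫)
    (hτ : ⟪nu v x, τ⟫ = 0) (hf : Jt v x f r g l) (u : EE n) :
    Jt v x (fun p => ⟪u, Wv v R x z τ al (p, f p)⟫) ⟪u, Wv v R x z τ al (x, f x)⟫
      (R u - u - (al * r - dd v x) • AA v x u - ⟪nu v x, u⟫ • (al • g - NN v x • nu v x)
        - ⟪τ, u⟫ • g + (r * ⟪nu v x, u⟫) • AA v x τ)
      (-(2 * √2 * v x * NN v x * ⟪nu v x, R u - u⟫)
        - (al * l + √2 * v x * (2 - tt v x)) * ⟪nu v x, u⟫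
        - 2 * ⟪al • g - NN v x • nu v x, AA v x u⟫
        + (al * r - dd v x) *
          (T2 v x / NN v x ^ 2 * ⟪nu v x, u⟫ + 2 * ⟪AA v x u, Bu v x⟫ / NN v x)
        - l * ⟪τ, u⟫ + 2 * ⟪nu v x, u⟫ * ⟪g, AA v x τ⟫
        + r * (2 * ⟪AA v x τ, AA v x u⟫ - 2 * ⟪nu v x, u⟫ * ⟪AA v x τ, Bu v x⟫ / NN v x)) := by
  have h := ((Jt.aff (v := v) (x := x) ⟪u, z - x⟫ (R u - u)).sub
    (((hf.cmul al).sub (Jt.dd hv)).mul (jnu hv hN u))).sub
    (hf.mul ((Jt.const ⟪τ, u⟫).sub ((jnu hv hN τ).mul (jnu hv hN u))))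
  have e : (fun p => ⟪u, Wv v R x z τ al (p, f p)⟫) = fun p => aff ⟪u, z - x⟫ (R u - u) x p
      - (al * f p - dd v p) * ⟪nu v p, u⟫ - f p * (⟪τ, u⟫ - ⟪nu v p, τ⟫ * ⟪nu v p, u⟫) :=
    funext fun p => by
      simp only [Wv, Pj, aff, inner_sub_right, inner_add_right, inner_sub_left, hR,
        real_inner_smul_right, real_inner_comm u (nu v p), real_inner_comm u τ,
        real_inner_comm τ (nu v p)]
      ring
  rw [← e] at h
  refine h.cast h.val.symm ?_ ?_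
  · rw [hτ, grad_eq hN]; module
  · simp only [hτ, grad_eq hN, real_inner_smul_left, inner_sub_right, inner_add_right,
      real_inner_smul_right, inner_zero_right]
    ring

/-- `-∂_r` of the defect -/
def La (v : EE n → ℝ) (x τ om : EE n) (al ga sg : ℝ) : ℝ :=
  NN v x * sg * (al * ⟪nu v x, om⟫ + ga + ⟪τ, om⟫) + NN v x * (1 + sg ^ 2) / 2

/-- `∇_x` of the defect -/
def Ga (v : EE n → ℝ) (r : ℝ) (x τ om : EE n) (al sg : ℝ) : EE n :=
  -(NN v x * sg) • Pj (nu v x) om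
    - (NN v x - NN v x ^ 2 * (1 + sg ^ 2) / 2 + NN v x * sg * ⟪nu v x, om⟫ * (1 - NN v x)) • nu v x
    - ((r - dd v x) * (1 - sg ^ 2) / 2) • Bu v x - (NN v x * sg * (al * r - dd v x)) • AA v x om
    + (NN v x * sg * r * ⟪nu v x, om⟫) • AA v x τ

/-- the vector in the Frobenius term -/
def Xv (v : EE n → ℝ) (r : ℝ) (x τ om g : EE n) (al : ℝ) : EE n :=
  r • AA v x τ - (1 - NN v x) • nu v x - (1 + ⟪om, nu v x⟫)⁻¹ • Pj (nu v x) om - al • g

/-- `sg (∇ y1 - sg ∇ L)` -/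
def Qv (v : EE n → ℝ) (r : ℝ) (x g : EE n) (sg : ℝ) : EE n :=
  ((1 - sg ^ 2) / 2) • g + ((1 - sg) * (1 - NN v x * (1 + sg) / 2)) • nu v x
    + ((r - dd v x) * (1 - sg ^ 2) / 2 / NN v x) • Bu v x

/-- the right hand side of the identity (the Frobenius term is estimated) -/
def RH (v : EE n → ℝ) (r : ℝ) (x z τ om g : EE n) (al ga sg κ : ℝ) : ℝ :=
  -(√2 * (v z - v x) * tt v z - qq v x * (dd v z - dd v x))
    + √2 * v x * (1 - NN v x) ^ 2 * ((tt v z - 1 - NN v x ^ 2) / (2 * NN v x)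
      - NN v x * sg * ⟪nu v x, om⟫)
    + NN v x * sg * ((1 + κ) * ((al * r - dd v x) ^ 2 * (T2 v x / NN v x ^ 2)) + 2 * (1 + κ⁻¹) *
      (‖Pj (nu v x) om‖ ^ 2 * ‖Xv v r x τ om g al‖ ^ 2 + ‖τ‖ ^ 2 * ‖g‖ ^ 2))
        / (sg * (r - dd v x) + ga * r)
    + (sg * (al * r - dd v x) * ⟪nu v x, om⟫ - (r - dd v x) * (1 - sg ^ 2) / 2) * T2 v x / NN v x
    + 2 * sg * (al * r - dd v x) * ⟪AA v x om, Bu v x⟫
    - 2 * NN v x * sg * ⟪al • g - NN v x • nu v x, AA v x om⟫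
    + 2 * NN v x * sg * ⟪nu v x, om⟫ * ⟪g, AA v x τ⟫
    + 2 * sg * r * (NN v x * ⟪AA v x τ, AA v x om⟫ - ⟪nu v x, om⟫ * ⟪AA v x τ, Bu v x⟫)
    + NN v x * ‖Qv v r x g sg‖ ^ 2 / sg ^ 2 / (r - dd v x)
    + 2 * (1 - sg) * ⟪Bu v x, nu v x⟫ + (r - dd v x) * (1 - sg ^ 2) * ‖Bu v x‖ ^ 2 / NN v x

/-- the data of a sphere contact -/
structure SD (v : EE n → ℝ) (r : ℝ) (x z τ om : EE n) (al ga sg : ℝ) : Prop where
  hv : Sol v
  hN : 0 < NN v x
  hL : 0 < r - dd v x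
  hs : 0 < sg
  hy : 0 < sg * (r - dd v x) + ga * r
  hτ : ⟪nu v x, τ⟫ = 0
  ho : ‖om‖ = 1
  hc : 0 < 1 + ⟪om, nu v x⟫
  hz : z = x + (al * r - dd v x) • nu v x + r • τ + (sg * (r - dd v x) + ga * r) • om
  dz : dd v z = dd v x + NN v x * ((r - dd v x) * (1 - sg ^ 2) / 2)
  gz : ∇ (dd v) z = -(NN v x * sg) • om

theorem SD.Wx (D : SD v r x z τ om al ga sg) :
    Wv v R x z τ al (x, r) = (sg * (r - dd v x) + ga * r) • om := by
  have := D.hz
  rw [Wv, Pj, real_inner_comm, D.hτ, sub_add_cancel]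
  generalize z = z' at *
  rw [this]
  module

theorem SD.tz (D : SD v r x z τ om al ga sg) : tt v z = 1 - NN v x ^ 2 * sg ^ 2 := by
  rw [tt, D.gz, norm_smul, D.ho, mul_one, Real.norm_eq_abs, sq_abs]; ring

/-- **the identity** -/
theorem SD.jet (D : SD v r x z τ om al ga sg)
    (hR : ∀ u, R u = u - ((⟪nu v x, u⟫ + ⟪om, u⟫) * (1 + ⟪om, nu v x⟫)⁻¹) • (nu v x + om))
    (hf : Jt v x f r g l) : ∃ l', Jt v x (fun p => Ps v R x z τ al ga (p, f p)) 0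
      (Ga v r x τ om al sg - La v x τ om al ga sg • g) l' ∧
      (La v x τ om al ga sg • g = Ga v r x τ om al sg → ∀ κ > 0,
        l' + La v x τ om al ga sg * l ≤ RH v r x z τ om g al ga sg κ) := by
  obtain ⟨hv, hN, hL, hs, hy, hτ, ho, hc, -, dz, gz⟩ := id D
  have hν := Wd.norm_nu hN
  have νν : ⟪nu v x, nu v x⟫ = 1 := by rw [real_inner_self_eq_norm_sq, hν, one_pow]
  have oo : ⟪om, om⟫ = 1 := by rw [real_inner_self_eq_norm_sq, ho, one_pow]
  have hc' : (1 + ⟪om, nu v x⟫) ≠ 0 := hc.ne'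
  have Rs : ∀ a b, ⟪R a, b⟫ = ⟪a, R b⟫ := fun a b => by
    simp only [hR, inner_sub_left, inner_sub_right, real_inner_smul_left, real_inner_smul_right,
      inner_add_left, inner_add_right, real_inner_comm a]
    ring
  have Ro : R om = -nu v x := by
    rw [hR, oo, real_inner_comm, add_comm _ (1 : ℝ), mul_inv_cancel₀ hc']; module
  have cW : ContDiffAt ℝ 2 (fun p => Wv v R x z τ al (p, f p)) x :=
    ContDiffAt.comp (g := Wv v R x z τ al) x (hf.val ▸ Wv_c2 hv hN) (contDiffAt_id.prodMk hf.c2)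
  have jy := Jt.norm (jW (z := z) (al := al) hv hN Rs hτ hf) cW (by rw [hf.val]; exact D.Wx) hy ho rfl
  have jL := hf.sub (Jt.dd hv)
  have j1 := (jy.sub (hf.cmul ga)).cast (a' := sg * (r - dd v x)) (by ring) rfl rfl
  have j2 := jF jL j1 hL.ne'
  have j3 := (Jt.iso hv R Rs z).sub ((Jt.dd hv).add ((jN hv hN).mul j2))
  have hG := j3.grad
  have hA := fun κ (hκ : 0 < κ) => fro_bound (-(al * r - dd v x) • AA v x) ho hν
    (M := fun u => R u - u - (al * r - dd v x) • AA v x u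
      - ⟪nu v x, u⟫ • (al • g - NN v x • nu v x) - ⟪τ, u⟫ • g + (r * ⟪nu v x, u⟫) • AA v x τ)
    (τ := τ) (X := Xv v r x τ om g al) (Y := -(1 + ⟪om, nu v x⟫)⁻¹ • (nu v x + om)) (g := -g)
    (fun u => by
      rw [hR, Xv, Pj, smul_apply]
      match_scalars <;> field_simp <;> ring) hκ
  have fA : fro (-(al * r - dd v x) • AA v x) = (al * r - dd v x) ^ 2 * (T2 v x / NN v x ^ 2) := by
    rw [← fro_AA hv hN, fro, fro, Finset.mul_sum]
    exact Finset.sum_congr rfl fun i _ => by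
      rw [smul_apply, norm_smul, mul_pow, Real.norm_eq_abs, sq_abs, neg_sq]
  simp only [fA, norm_neg] at hA
  generalize (∑ i, ‖R (ev i) - ev i - (al * r - dd v x) • AA v x (ev i)
    - ⟪nu v x, ev i⟫ • (al • g - NN v x • nu v x) - ⟪τ, ev i⟫ • g
    + (r * ⟪nu v x, ev i⟫) • AA v x τ‖ ^ 2) - _ = HS at hA j3
  refine ⟨_, (j3.congr (Eventually.of_forall fun p => ?_)).cast (by rw [dz]; ring) ?_ rfl,
    fun h κ hκ => ?_⟩
  · simp only [Ps, gp, mul_div_assoc]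
  · rw [gz, map_smul, Ro, grad_eq hN, Ga, La, Pj, real_inner_comm om (nu v x)]
    match_scalars <;> ring
  · have q1 : R om - om - (al * r - dd v x) • AA v x om
        - ⟪nu v x, om⟫ • (al • g - NN v x • nu v x) - ⟪τ, om⟫ • g
        + (r * ⟪nu v x, om⟫) • AA v x τ - ga • g =
        sg • (g - ∇ (dd v) x) + sg⁻¹ • Qv v r x g sg := by
      have h2 : (NN v x * sg)⁻¹ • (La v x τ om al ga sg • g) =
        (NN v x * sg)⁻¹ • Ga v r x τ om al sg := by rw [h]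
      rw [← sub_eq_zero] at h2 ⊢
      rw [← neg_eq_zero, ← h2, Ro, grad_eq hN, Qv, Ga, La, Pj, real_inner_comm om (nu v x)]
      match_scalars <;> field_simp <;> ring
    have h3 := div_le_div_of_nonneg_right (hA κ hκ) hy.le
    have h4 := mul_le_mul_of_nonneg_left h3 (mul_pos hN hs).le
    rw [q1, add_sub_cancel_left, RH, gz, map_smul, Ro, grad_eq hN, La, dz, D.tz, norm_smul, mul_pow,
      Real.norm_eq_abs, sq_abs, show tt v x = 1 - NN v x ^ 2 from rfl]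
    simp only [Qv, inner_sub_right, inner_add_right, real_inner_smul_right, real_inner_smul_left,
      inner_neg_right, νν, real_inner_self_eq_norm_sq (Bu v x)]
    refine le_of_sub_nonneg ((sub_nonneg.2 h4).trans_eq ?_)
    field_simp
    ring

end

end Crest.Agent.N067.X2
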